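import Vale.Agent.P141.H808.NumCA
import Vale.Agent.P141.H408.SkelTI3

/-!
# P141, line (A), increasing part: sums over the `x0` of numbers of the cut families

`NumF` : a number at every `x0`; `SumU σ f` : its sum over the `x0` of the three roots is at most
`X (s 8^K) (t / r)^σ'`, `σ' = e0 / 2` or `-e0 / 2`; `SumL σ f` : the same for every lag.
`SumU.add`, `SumU.le`, `SumL.wS` (weights `(3/4)^l`), `SumU.and`.
-/

namespace Vale.Agent.P141.H886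

open Finset Matrix
open Vale.Agent.P141.PL (Pt iv cx)
open Vale.Agent.P141.PL.H315 (Tri)
open Vale.Agent.P141.H48 (US ES BSl)
open Vale.Agent.P141.H305 (ClsM kapM)
open Vale.Agent.P141.H401 (StQ FibU FibP)
open Vale.Agent.P141.H677 (rt)
open Vale.Agent.P141.H408

noncomputable section

open scoped Classical

set_option linter.unusedVariables false

/-- a number at every `x0` for the cut families of class data -/
abbrev NumF : Type 1 := ∀ (ι : Type) [Fintype ι] [DecidableEq ι] (p : H401.Num) (n : ℕ) (ez : ℝ)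
  (F1 F2 F3 : ℕ → Pt → ℝ) (o : ℤ) (K : ℕ) (x : Pt) (s r : ℝ) (U : Tri) (g : ℤ → ℤ → ℝ)
  (u v : ℤ → ℤ → ι → ℝ) (Q1 Q2 Q3 : ℕ → Pt → Prop), ℤ → ℝ

/-- the body of the sum -/
def SumQ (σ : ℝ) (f : NumF) : StQ := fun ι _ _ p n ez F1 F2 F3 o K x s r U g u v Q1 Q2 Q3 X =>
  ∑ t ∈ rt (cx K x), ∑ x0 ∈ iv K t, f ι p n ez F1 F2 F3 o K x s r U g u v Q1 Q2 Q3 x0 ≤
    X * (s * 8 ^ K) * (p.t / r) ^ (σ * (p.e0 / 2))

/-- **the sum over the `x0`** -/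
def SumU (σ : ℝ) (f : NumF) : Prop := PairU (SumQ σ f)

/-- **the sum over the `x0`, every lag** -/
def SumL (σ : ℝ) (f : ℕ → NumF) : Prop :=
  PairU fun ι _ _ p n ez F1 F2 F3 o K x s r U g u v Q1 Q2 Q3 X =>
    ∀ l, SumQ σ (f l) ι p n ez F1 F2 F3 o K x s r U g u v Q1 Q2 Q3 X

theorem mono_sumQ (σ : ℝ) (f : NumF) : MonoQ (SumQ σ f) := by
  intro ι _ _ p n ez F1 F2 F3 o K x s r U g u v Q1 Q2 Q3 X X' ht hs hr hez hX h
  refine le_trans h ?_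
  have h1 : 0 < p.t / r := div_pos ht (by linarith)
  exact mul_le_mul_of_nonneg_right (mul_le_mul_of_nonneg_right hX (by positivity))
    (by positivity)

/-- change of the statement at one class, constant factor -/
theorem PairU.map {Φ Ψ : StQ} {M : ℝ} (hM : 0 ≤ M) (H : PairU Φ)
    (h : ∀ (ι : Type) [Fintype ι] [DecidableEq ι] (p : H401.Num) (n : ℕ) (ez : ℝ)
      (F1 F2 F3 : ℕ → Pt → ℝ) (o : ℤ) (K : ℕ) (x : Pt) (s r : ℝ) (U : Tri) (g : ℤ → ℤ → ℝ)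
      (u v : ℤ → ℤ → ι → ℝ) (Q1 Q2 Q3 : ℕ → Pt → Prop) (X : ℝ), 0 < p.t → 0 < s → 1 ≤ r →
      0 < ez → 0 ≤ X → Φ ι p n ez F1 F2 F3 o K x s r U g u v Q1 Q2 Q3 X →
      Ψ ι p n ez F1 F2 F3 o K x s r U g u v Q1 Q2 Q3 (M * X)) : PairU Ψ :=
  PairQ.map hM H fun ι _ _ p n ez F1 F2 F3 o K x s r U g u v Q1 Q2 Q3 X ht hs hr hez hX h1 f1 f2 =>
    h ι p n ez F1 F2 F3 o K x s r U g u v Q1 Q2 Q3 X ht hs hr hez hX (h1 f1 f2)

/-- sum of two numbers -/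
theorem SumU.add {σ : ℝ} {f1 f2 : NumF} (H1 : SumU σ f1) (H2 : SumU σ f2) :
    SumU σ fun ι _ _ p n ez F1 F2 F3 o K x s r U g u v Q1 Q2 Q3 x0 =>
      f1 ι p n ez F1 F2 F3 o K x s r U g u v Q1 Q2 Q3 x0 +
        f2 ι p n ez F1 F2 F3 o K x s r U g u v Q1 Q2 Q3 x0 := by
  refine PairU.map (M := 2) (by norm_num)
    (PairU.and H1 H2 (mono_sumQ σ f1) (mono_sumQ σ f2)) ?_
  intro ι _ _ p n ez F1 F2 F3 o K x s r U g u v Q1 Q2 Q3 X ht hs hr hez hX h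
  have a1 := h.1
  have a2 := h.2
  unfold SumQ at a1 a2 ⊢
  simp only [sum_add_distrib]
  linarith

/-- a smaller number -/
theorem SumU.le {σ M : ℝ} {f1 f2 : NumF} (hM : 0 ≤ M) (H : SumU σ f1)
    (h : ∀ (ι : Type) [Fintype ι] [DecidableEq ι] (p : H401.Num) (n : ℕ) (ez : ℝ)
      (F1 F2 F3 : ℕ → Pt → ℝ) (o : ℤ) (K : ℕ) (x : Pt) (s r : ℝ) (U : Tri) (g : ℤ → ℤ → ℝ)
      (u v : ℤ → ℤ → ι → ℝ) (Q1 Q2 Q3 : ℕ → Pt → Prop) (x0 : ℤ), 0 < p.t → 0 < s → 1 ≤ r →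
      0 < ez → f2 ι p n ez F1 F2 F3 o K x s r U g u v Q1 Q2 Q3 x0 ≤
        M * f1 ι p n ez F1 F2 F3 o K x s r U g u v Q1 Q2 Q3 x0) : SumU σ f2 := by
  refine PairU.map hM H ?_
  intro ι _ _ p n ez F1 F2 F3 o K x s r U g u v Q1 Q2 Q3 X ht hs hr hez hX h1
  unfold SumQ at h1 ⊢
  calc ∑ t ∈ rt (cx K x), ∑ x0 ∈ iv K t, f2 ι p n ez F1 F2 F3 o K x s r U g u v Q1 Q2 Q3 x0
      ≤ ∑ t ∈ rt (cx K x), ∑ x0 ∈ iv K t,
        M * f1 ι p n ez F1 F2 F3 o K x s r U g u v Q1 Q2 Q3 x0 :=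
        sum_le_sum fun t _ => sum_le_sum fun x0 _ =>
          h ι p n ez F1 F2 F3 o K x s r U g u v Q1 Q2 Q3 x0 ht hs hr hez
    _ = M * ∑ t ∈ rt (cx K x), ∑ x0 ∈ iv K t,
        f1 ι p n ez F1 F2 F3 o K x s r U g u v Q1 Q2 Q3 x0 := by simp only [mul_sum]
    _ ≤ M * (X * (s * 8 ^ K) * (p.t / r) ^ (σ * (p.e0 / 2))) := mul_le_mul_of_nonneg_left h1 hM
    _ = M * X * (s * 8 ^ K) * (p.t / r) ^ (σ * (p.e0 / 2)) := by ring

/-- the geometric weights -/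
theorem geo34 (K : ℕ) : ∑ l ∈ range (K + 1), (3 / 4 : ℝ) ^ l ≤ 4 := by
  rw [geom_sum_eq (by norm_num)]
  have h : (0 : ℝ) < (3 / 4) ^ (K + 1) := by positivity
  rw [div_le_iff_of_neg (by norm_num)]
  linarith

/-- **the weighted sum over the lags** -/
theorem SumL.wS {σ : ℝ} {f : ℕ → NumF} (H : SumL σ f) :
    SumU σ fun ι _ _ p n ez F1 F2 F3 o K x s r U g u v Q1 Q2 Q3 x0 =>
      ∑ l ∈ range (K + 1), (3 / 4 : ℝ) ^ l *
        f l ι p n ez F1 F2 F3 o K x s r U g u v Q1 Q2 Q3 x0 := by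
  refine PairU.map (M := 4) (by norm_num) H ?_
  intro ι _ _ p n ez F1 F2 F3 o K x s r U g u v Q1 Q2 Q3 X ht hs hr hez hX h
  have h1 : 0 < p.t / r := div_pos ht (by linarith)
  have hB : 0 ≤ X * (s * 8 ^ K) * (p.t / r) ^ (σ * (p.e0 / 2)) := by positivity
  have e : ∑ t ∈ rt (cx K x), ∑ x0 ∈ iv K t, ∑ l ∈ range (K + 1), (3 / 4 : ℝ) ^ l *
        f l ι p n ez F1 F2 F3 o K x s r U g u v Q1 Q2 Q3 x0 =
      ∑ l ∈ range (K + 1), (3 / 4 : ℝ) ^ l * ∑ t ∈ rt (cx K x), ∑ x0 ∈ iv K t,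
        f l ι p n ez F1 F2 F3 o K x s r U g u v Q1 Q2 Q3 x0 := by
    have e1 : ∀ t ∈ rt (cx K x), ∑ x0 ∈ iv K t, ∑ l ∈ range (K + 1), (3 / 4 : ℝ) ^ l *
        f l ι p n ez F1 F2 F3 o K x s r U g u v Q1 Q2 Q3 x0 =
        ∑ l ∈ range (K + 1), ∑ x0 ∈ iv K t, (3 / 4 : ℝ) ^ l *
          f l ι p n ez F1 F2 F3 o K x s r U g u v Q1 Q2 Q3 x0 := fun t _ => sum_comm
    rw [sum_congr rfl e1, sum_comm]
    refine sum_congr rfl fun l _ => ?_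
    simp only [mul_sum]
  unfold SumQ
  rw [e]
  calc _ ≤ ∑ l ∈ range (K + 1), (3 / 4 : ℝ) ^ l *
        (X * (s * 8 ^ K) * (p.t / r) ^ (σ * (p.e0 / 2))) :=
        sum_le_sum fun l _ => mul_le_mul_of_nonneg_left (h l) (by positivity)
    _ = (∑ l ∈ range (K + 1), (3 / 4 : ℝ) ^ l) *
        (X * (s * 8 ^ K) * (p.t / r) ^ (σ * (p.e0 / 2))) := by rw [sum_mul]
    _ ≤ 4 * (X * (s * 8 ^ K) * (p.t / r) ^ (σ * (p.e0 / 2))) :=
        mul_le_mul_of_nonneg_right (geo34 K) hB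
    _ = 4 * X * (s * 8 ^ K) * (p.t / r) ^ (σ * (p.e0 / 2)) := by ring

end

end Vale.Agent.P141.H886
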