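import Vale.Agent.P141.H883.FCap
import Vale.Agent.P141.H652.NumB

/-!
# P141, line (A), increasing part: the operator cap of the slot `C` at the hub `x₁`

* `CM_QW`, `CP_of_QW` : the Gram matrix of the rows from the one of the columns;
* `cS_CP` : `(cCI² / 3) • 1 - CP c k a n m` inside the windows, class data;
* `cS_SD` : the same for the weighted slot, `cCI² • 1 - S CP S`.
-/

namespace Vale.Agent.P141.H886

open Finset Matrix
open Vale.Agent.P075 (Ix val)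
open Vale.Agent.P141.PL (Pt iv ix cx mem_iv)
open Vale.Agent.P141.PL.H315 (Tri)
open Vale.Agent.P141.H48 (BSl)
open Vale.Agent.P141.H103 (QW)
open Vale.Agent.P141.H305 (Cls)
open Vale.Agent.P141.H677 (KT tr_T)
open Vale.Agent.P141.H652 (Th Th_psd Th_le_two)
open Vale.Agent.P141.H874 (CP BM DB DB_psd)
open Vale.Agent.P141.H457 (CM CM_mul SD SD_sq SD_psd WD DB_sub DB_smul DB_one)
open Vale.Agent.P141.H808 (cS thS)
open Vale.Agent.P141.H408 (beI cCI C1)

noncomputable section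

open scoped Classical

section gen

variable {κ : Type*} [Fintype κ] [DecidableEq κ]

theorem CM_QW (b : ℤ → ℤ → κ → ℝ) (k a : ℕ) (n m : ℤ) :
    (CM b k a n m)ᵀ * CM b k a n m = QW k a b (fun _ => 1) m n := by
  ext i j
  have h0 : (0 : ℝ) ≤ 2 ^ k * 2 ^ a := by positivity
  have e : (√((2 : ℝ) ^ k * 2 ^ a))⁻¹ * (√((2 : ℝ) ^ k * 2 ^ a))⁻¹
      = ((2 : ℝ) ^ k * 2 ^ a)⁻¹ := by
    rw [← mul_inv, Real.mul_self_sqrt h0]
  simp only [Matrix.mul_apply, transpose_apply, CM, H103.QW]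
  rw [Fintype.sum_prod_type, PL.H588.sum_iv, mul_sum]
  refine sum_congr rfl fun x _ => ?_
  rw [one_mulVec, dotProduct, mul_sum]
  refine sum_congr rfl fun l _ => ?_
  rw [← e]
  ring

theorem CP_of_QW {c : ℝ} (hc : 0 < c) {b : ℤ → ℤ → κ → ℝ} {k a : ℕ} {n m : ℤ}
    (h : (c • (1 : Matrix (Ix a) (Ix a) ℝ) - QW k a b (fun _ => 1) m n).PosSemidef) :
    (c • (1 : Matrix (Ix k × κ) (Ix k × κ) ℝ) - CP b k a n m).PosSemidef := by
  have h1 := h.smul (inv_nonneg.2 hc.le)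
  rw [smul_sub, smul_smul, inv_mul_cancel₀ hc.ne', one_smul, ← CM_QW] at h1
  have h2 := (H204.cap_swap (CM b k a n m) (inv_nonneg.2 hc.le) h1).smul hc.le
  rw [CM_mul, smul_sub, smul_smul, mul_inv_cancel₀ hc.ne', one_smul] at h2
  exact h2

/-- the weighted slot -/
theorem SD_cap {be q θ : ℝ} (hb : 0 < be) (hq : 0 ≤ q) {T : ℕ → ℤ → ℤ → Matrix κ κ ℝ}
    (hT : ∀ k x m, (T k x m).PosSemidef)
    (hθ : ∀ k x m, (θ • (1 : Matrix κ κ ℝ) - (be • 1 + T k x m)).PosSemidef)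
    {b : ℤ → ℤ → κ → ℝ} {k a : ℕ} {n m : ℤ}
    (h : (q • (1 : Matrix (Ix k × κ) (Ix k × κ) ℝ) - CP b k a n m).PosSemidef) :
    ((θ * q) • (1 : Matrix (Ix k × κ) (Ix k × κ) ℝ) -
      SD be T k a n m * CP b k a n m * SD be T k a n m).PosSemidef := by
  have hS := P075.psd_isSymm (SD_psd hb hT k a n m)
  have h1 := P075.psd_conj_symm h hS
  have e1 : SD be T k a n m * (q • (1 : Matrix (Ix k × κ) (Ix k × κ) ℝ) - CP b k a n m) *
      SD be T k a n m = q • WD be T k a n m -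
        SD be T k a n m * CP b k a n m * SD be T k a n m := by
    rw [Matrix.mul_sub, Matrix.sub_mul, Matrix.mul_smul, Matrix.smul_mul, Matrix.mul_one,
      SD_sq hb hT]
  rw [e1] at h1
  have h2 : (θ • (1 : Matrix (Ix k × κ) (Ix k × κ) ℝ) - WD be T k a n m).PosSemidef := by
    unfold WD
    rw [← DB_one k m, DB_smul, DB_sub]
    exact DB_psd fun x => hθ a x n
  have h3 := (h2.smul hq).add h1
  have e2 : q • (θ • (1 : Matrix (Ix k × κ) (Ix k × κ) ℝ) - WD be T k a n m) +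
      (q • WD be T k a n m - SD be T k a n m * CP b k a n m * SD be T k a n m) =
      (θ * q) • (1 : Matrix (Ix k × κ) (Ix k × κ) ℝ) -
        SD be T k a n m * CP b k a n m * SD be T k a n m := by
    rw [smul_sub, smul_smul, mul_comm q θ]
    abel
  rwa [e2] at h3

end gen

section cls

variable {ι : Type} [Fintype ι] [DecidableEq ι] {p : H401.Num} {n K : ℕ} {ez cP P : ℝ}
  {F2 : ℕ → Pt → ℝ} {Q2 : ℕ → Pt → Prop} {x : Pt} {s r : ℝ} {U : Tri} {g : ℤ → ℤ → ℝ}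
  {u v : ℤ → ℤ → ι → ℝ}

/-- **The bare cap at the hub `x₁`**, inside the windows. -/
theorem cS_CP (ht : 0 < p.t) (ht1 : p.t ≤ 1) (hd : p.d ≤ 1) (hs : 0 < s) (hr : 1 ≤ r)
    (hez : 0 < ez) (hK : K ≤ n) (hcls : Cls K x s r P U g u v) (q2 : BSl n ez cP F2 Q2) (x0 : ℤ)
    {k a j : ℕ} (hk : k ≤ K) (hka : k ≤ a) (ha : a ≤ K) (hj : j ≤ k + 1) {n' m : ℤ}
    (hm : m ∈ iv (K - k) (cx K x).1) (hn : n' ∈ iv (K - a) (cx K x).2.2) :
    ((cCI p s r ^ 2 / 3) • (1 : Matrix (Ix k × ι) (Ix k × ι) ℝ) -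
      CP (cS p ez U K v F2 x0 j) k a n' m).PosSemidef := by
  have hy : 0 < p.t / r := div_pos ht (by linarith)
  have hC : 0 < cCI p s r := by
    unfold H408.cCI
    have h1 : 0 < s ^ (1 / 4 : ℝ) := Real.rpow_pos_of_pos hs _
    positivity
  refine CP_of_QW (by positivity) ?_
  have h3 : (√(3 : ℝ))⁻¹ ^ 2 = 1 / 3 := by
    rw [inv_pow, Real.sq_sqrt (by norm_num)]
    norm_num
  have e : (cCI p s r * (√(3 : ℝ))⁻¹) ^ 2 = cCI p s r ^ 2 / 3 := by
    rw [mul_pow, h3]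
    ring
  have h := H883.cap_one (p := p) (θ := 1) (c := (√ez)⁻¹) (cC := cCI p s r * (√(3 : ℝ))⁻¹) ht hs
    hez hK hcls q2 zero_le_one (W := fun _ _ _ => (1 : Matrix ι ι ℝ))
    (fun _ _ _ => by
      rw [one_smul, sub_self]
      exact PosSemidef.zero)
    (by
      have h4 := H482.LCap.capC_num' (p := p) ht ht1 hd hs hr hez
      rw [e]
      linarith) x0 a k m n' ha hk j
    (by rwa [min_eq_right hka]) hm hn
  rw [e] at h
  exact h

/-- **The cap of the weighted slot at the hub `x₁`**, inside the windows. -/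
theorem cS_SD {o : ℤ} (he0 : 0 ≤ p.e0) (ht : 0 < p.t) (ht1 : p.t ≤ 1) (hd : p.d ≤ 1) (hs : 0 < s)
    (hr : 1 ≤ r) (hez : 0 < ez) (hK : K ≤ n) (hcls : Cls K x s r P U g u v)
    (q2 : BSl n ez cP F2 Q2) (x0 : ℤ)
    {k a j : ℕ} (hk : k ≤ K) (hka : k ≤ a) (ha : a ≤ K) (hj : j ≤ k + 1) {n' m : ℤ}
    (hm : m ∈ iv (K - k) (cx K x).1) (hn : n' ∈ iv (K - a) (cx K x).2.2) :
    (cCI p s r ^ 2 • (1 : Matrix (Ix k × ι) (Ix k × ι) ℝ) -
      SD (beI p r) (fun a x1 i => Th (p.lam s r) K (cx K x).2.1 (KT (p.lam s r) u x1) (o - 2) x0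
          x1 a i) k a n' m * CP (cS p ez U K v F2 x0 j) k a n' m *
        SD (beI p r) (fun a x1 i => Th (p.lam s r) K (cx K x).2.1 (KT (p.lam s r) u x1) (o - 2) x0
          x1 a i) k a n' m).PosSemidef := by
  have hy : 0 < p.t / r := div_pos ht (by linarith)
  have hy1 : p.t / r ≤ 1 := (div_le_self ht.le hr).trans ht1
  have hbe : 0 < beI p r := Real.rpow_pos_of_pos hy _
  have hbe1 : beI p r ≤ 1 := Real.rpow_le_one hy.le hy1 (by linarith)
  have hl : (0 : ℝ) < p.lam s r := H401.Num.lam_pos (p := p) ht hs hr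
  have h := cS_CP ht ht1 hd hs hr hez hK hcls q2 x0 hk hka ha hj hm hn
  have h2 := SD_cap (θ := 3) (T := fun a x1 i => Th (p.lam s r) K (cx K x).2.1
    (KT (p.lam s r) u x1) (o - 2) x0 x1 a i) hbe (by positivity)
    (fun k x1 i => Th_psd (tr_T hl K u x1) _ _ _ _ _)
    (fun k x1 i => by
      have h3 := Th_le_two (M := (cx K x).2.1) (tr_T hl K u x1) (o - 2) x0 x1 k i
      have h4 := (PosSemidef.one (n := ι) (R := ℝ)).smul (sub_nonneg.2 hbe1)
      have h5 := h3.add h4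
      have e : (2 : ℝ) • (1 : Matrix ι ι ℝ) - Th (p.lam s r) K (cx K x).2.1
          (KT (p.lam s r) u x1) (o - 2) x0 x1 k i + (1 - beI p r) • (1 : Matrix ι ι ℝ) =
          (3 : ℝ) • (1 : Matrix ι ι ℝ) - (beI p r • 1 + Th (p.lam s r) K (cx K x).2.1
          (KT (p.lam s r) u x1) (o - 2) x0 x1 k i) := by
        rw [sub_smul]
        have e3 : (3 : ℝ) • (1 : Matrix ι ι ℝ) = (2 : ℝ) • (1 : Matrix ι ι ℝ) +
            (1 : ℝ) • (1 : Matrix ι ι ℝ) := by
          rw [← add_smul]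
          norm_num
        rw [e3]
        abel
      rwa [e] at h5) h
  have e3 : (3 : ℝ) * (cCI p s r ^ 2 / 3) = cCI p s r ^ 2 := by ring
  rwa [e3] at h2

end cls

end

end Vale.Agent.P141.H886
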