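import Vale.Agent.P141.H408.SkelTI3
import Vale.Agent.P141.H808.LcaEnd

/-!
# P141, line (A), increasing part: last step of the moving pair `(Bg, Cg)`

`pBC` : the pair of `H228.Gauge.PBCg` at one `x0`; `NumBC K₀ c₁` : the fixed `x0` conclusion with
its two numbers, summed over `x0`; `lbc_end` : the leaf `LBCg` of
`H408.SkelTI3` from `NumBC` (all levels and exponents).
-/

namespace Vale.Agent.P141.H886

open Finset Matrix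
open Vale.Agent.P141.PL (Pt iv cx)
open Vale.Agent.P141.H401 (cA cb mC)
open Vale.Agent.P141.H677 (KT rt sN)
open Vale.Agent.P141.H677.Sk (FamA FamV FunF)
open Vale.Agent.P141.H228.Gauge (Bg Cg PBCg)
open Vale.Agent.P141.H808 (exists_levels)
open Vale.Agent.P141.H408

noncomputable section

open scoped Classical

section fam

variable {ι : Type} [Fintype ι] [DecidableEq ι]

/-- the pair `(Bg, Cg)` at one `x0` -/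
def pBC (Al : ℕ → Pt → Prop) (o : ℤ) (K : ℕ) (M : Pt) (be l : ℝ) (u : ℤ → ℤ → ι → ℝ)
    (b C : FamV ι) (y z : ℝ) (x0 : ℤ) : ℝ :=
  ∑ k ∈ Icc 1 K, ∑ m ∈ sN Al o K M x0 k,
    rBC (Bg (b x0 k)) (Cg be l K M.2.1 (KT l u) (o - 2) x0 (C x0 k) k) k m y z

theorem PBCg_eq (be y z : ℝ) (Al : ℕ → Pt → Prop) (o : ℤ) (K : ℕ) (M : Pt)
    (sg : ℕ → Pt → ℝ) (l : ℝ) (u : ℤ → ℤ → ι → ℝ) (A : FamA) (b C : FamV ι) :
    PBCg be y z ι Al o K M sg l u A b C =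
      ∑ t ∈ rt M, ∑ x0 ∈ iv K t, pBC Al o K M be l u b C y z x0 := rfl

end fam

/-- Cauchy-Schwarz over the `x0` -/
theorem sum_num {M : Pt} {K : ℕ} {f E EB : ℤ → ℝ} {c z2 t2 SE SB : ℝ} (hc : 0 ≤ c)
    (hz : 0 ≤ z2) (ht : 0 ≤ t2) (hE0 : ∀ x0, 0 ≤ E x0) (hB0 : ∀ x0, 0 ≤ EB x0)
    (h : ∀ t ∈ rt M, ∀ x0 ∈ iv K t, f x0 ≤ c * (√(z2 * E x0 * (t2 * EB x0)) + t2 * E x0))
    (hE : ∑ t ∈ rt M, ∑ x0 ∈ iv K t, E x0 ≤ SE) (hB : ∑ t ∈ rt M, ∑ x0 ∈ iv K t, EB x0 ≤ SB) :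
    ∑ t ∈ rt M, ∑ x0 ∈ iv K t, f x0 ≤ c * (√(z2 * SE * (t2 * SB)) + t2 * SE) := by
  refine (sum_le_sum fun t h1 => sum_le_sum fun x0 h2 => h t h1 x0 h2).trans ?_
  have e1 : ∀ f : ℤ → ℝ, ∑ t ∈ rt M, ∑ x0 ∈ iv K t, f x0 =
      ∑ i ∈ (rt M).sigma fun t => iv K t, f i.2 := fun f => by rw [sum_sigma]
  rw [e1] at hE hB ⊢
  rw [← mul_sum, sum_add_distrib, ← mul_sum]
  refine mul_le_mul_of_nonneg_left (add_le_add ?_ (mul_le_mul_of_nonneg_left hE ht)) hc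
  have h3 : ∀ i : (_ : ℤ) × ℤ, √(z2 * E i.2 * (t2 * EB i.2)) =
      √(z2 * E i.2) * √(t2 * EB i.2) := fun i => Real.sqrt_mul (mul_nonneg hz (hE0 _)) _
  rw [sum_congr rfl fun i _ => h3 i]
  refine (Real.sum_sqrt_mul_sqrt_le _ (fun i => mul_nonneg hz (hE0 _))
    (fun i => mul_nonneg ht (hB0 _))).trans ?_
  rw [← Real.sqrt_mul (sum_nonneg fun i _ => mul_nonneg hz (hE0 _))]
  have hSE : 0 ≤ ∑ i ∈ (rt M).sigma fun t => iv K t, E i.2 := sum_nonneg fun i _ => hE0 _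
  have hSB : 0 ≤ ∑ i ∈ (rt M).sigma fun t => iv K t, EB i.2 := sum_nonneg fun i _ => hB0 _
  refine Real.sqrt_le_sqrt ?_
  rw [← mul_sum, ← mul_sum]
  exact mul_le_mul (mul_le_mul_of_nonneg_left hE hz) (mul_le_mul_of_nonneg_left hB ht)
    (mul_nonneg ht hSB) (mul_nonneg hz (hSE.trans hE))

theorem lev_shift (J J₁ : ℕ) :
    (((J + J₁ : ℕ) : ℝ) + 1) ^ 3 ≤ ((J₁ : ℝ) + 1) ^ 3 * ((J : ℝ) + 1) ^ 3 := by
  rw [← mul_pow]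
  refine pow_le_pow_left₀ (by positivity) ?_ 3
  push_cast
  have h5 : (0 : ℝ) ≤ (J₁ : ℝ) * J := by positivity
  have e : ((J₁ : ℝ) + 1) * ((J : ℝ) + 1) = J + J₁ + 1 + J₁ * J := by ring
  rw [e]
  linarith

/-- the exponents of the last step -/
theorem fin_num {K₀ C C2 y e0 δ τ z V : ℝ} {J J₁ : ℕ} (hK₀ : 0 ≤ K₀) (hC : 0 ≤ C)
    (hV0 : 0 < V) (hτ : 0 < τ) (hy0 : 0 < y) (hy1 : y ≤ 1) (he0 : 0 < e0)
    (hz1 : y ^ (e0 / 4) * τ ≤ z) (hJ2 : ((J : ℝ) + 1) ^ 3 ≤ C2 * y ^ (-(δ / 2))) :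
    K₀ * (((J + J₁ : ℕ) : ℝ) + 1) ^ 3 *
      (√(z ^ 2 * (C * y ^ (-(δ / 2)) * V * y ^ (e0 / 2)) *
          (τ ^ 2 * (C * y ^ (-(δ / 2)) * V * y ^ (-(e0 / 2))))) +
        τ ^ 2 * (C * y ^ (-(δ / 2)) * V * y ^ (e0 / 2))) ≤
    2 * K₀ * ((J₁ : ℝ) + 1) ^ 3 * C2 * C * y ^ (-δ) * V * (τ * z) := by
  have hye : 0 < y ^ (e0 / 4) := Real.rpow_pos_of_pos hy0 _
  have hye1 : y ^ (e0 / 4) ≤ 1 := Real.rpow_le_one hy0.le hy1 (by positivity)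
  have hz0 : 0 < z := (mul_pos hye hτ).trans_le hz1
  obtain ⟨X, hX⟩ : ∃ X : ℝ, X = C * y ^ (-(δ / 2)) := ⟨_, rfl⟩
  have hX0 : 0 ≤ X := by
    rw [hX]
    exact mul_nonneg hC (Real.rpow_nonneg hy0.le _)
  rw [← hX]
  have e9 : y ^ (e0 / 2) = y ^ (e0 / 4) * y ^ (e0 / 4) := by
    rw [← Real.rpow_add hy0]
    congr 1
    ring
  have e9' : y ^ (e0 / 2) * y ^ (-(e0 / 2)) = 1 := by
    rw [← Real.rpow_add hy0]
    simp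
  have e10 : √(z ^ 2 * (X * V * y ^ (e0 / 2)) * (τ ^ 2 * (X * V * y ^ (-(e0 / 2))))) =
      X * V * (τ * z) := by
    rw [show z ^ 2 * (X * V * y ^ (e0 / 2)) * (τ ^ 2 * (X * V * y ^ (-(e0 / 2)))) =
      (X * V * (τ * z)) ^ 2 * (y ^ (e0 / 2) * y ^ (-(e0 / 2))) by ring, e9', mul_one]
    exact Real.sqrt_sq (by positivity)
  have e11 : τ ^ 2 * (X * V * y ^ (e0 / 2)) ≤ X * V * (τ * z) := by
    rw [e9]
    calc τ ^ 2 * (X * V * (y ^ (e0 / 4) * y ^ (e0 / 4)))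
        = X * V * (y ^ (e0 / 4) * (τ * (y ^ (e0 / 4) * τ))) := by ring
      _ ≤ X * V * (1 * (τ * z)) := by
        refine mul_le_mul_of_nonneg_left ?_ (by positivity)
        refine mul_le_mul hye1 ?_ (by positivity) zero_le_one
        exact mul_le_mul_of_nonneg_left hz1 hτ.le
      _ = X * V * (τ * z) := by ring
  have e12 : (((J + J₁ : ℕ) : ℝ) + 1) ^ 3 * X ≤ ((J₁ : ℝ) + 1) ^ 3 * C2 * C * y ^ (-δ) := by
    have e13 : y ^ (-δ) = y ^ (-(δ / 2)) * y ^ (-(δ / 2)) := by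
      rw [← Real.rpow_add hy0]
      congr 1
      ring
    rw [e13]
    calc (((J + J₁ : ℕ) : ℝ) + 1) ^ 3 * X
        ≤ ((J₁ : ℝ) + 1) ^ 3 * ((J : ℝ) + 1) ^ 3 * X :=
          mul_le_mul_of_nonneg_right (lev_shift J J₁) hX0
      _ ≤ ((J₁ : ℝ) + 1) ^ 3 * (C2 * y ^ (-(δ / 2))) * X :=
          mul_le_mul_of_nonneg_right (mul_le_mul_of_nonneg_left hJ2 (by positivity)) hX0
      _ = _ := by
        rw [hX]
        ring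
  rw [e10]
  obtain ⟨N, hN⟩ : ∃ N : ℝ, N = (((J + J₁ : ℕ) : ℝ) + 1) ^ 3 := ⟨_, rfl⟩
  have hN0 : 0 ≤ N := by
    rw [hN]
    positivity
  rw [← hN] at e12 ⊢
  calc K₀ * N * (X * V * (τ * z) + τ ^ 2 * (X * V * y ^ (e0 / 2)))
      ≤ K₀ * N * (X * V * (τ * z) + X * V * (τ * z)) :=
        mul_le_mul_of_nonneg_left (by linarith) (by positivity)
    _ = 2 * K₀ * (N * X) * (V * (τ * z)) := by ring
    _ ≤ 2 * K₀ * (((J₁ : ℝ) + 1) ^ 3 * C2 * C * y ^ (-δ)) * (V * (τ * z)) := by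
        refine mul_le_mul_of_nonneg_right (mul_le_mul_of_nonneg_left e12 (by positivity)) ?_
        positivity
    _ = 2 * K₀ * ((J₁ : ℝ) + 1) ^ 3 * C2 * C * y ^ (-δ) * V * (τ * z) := by ring

/-- the level of the cap -/
theorem lev_cap {c₁ cC s y e0 th z : ℝ} {J : ℕ} (hc₁ : 0 ≤ c₁) (hs4 : 0 < s ^ (1 / 4 : ℝ))
    (hy0 : 0 < y) (hy1 : y ≤ 1) (he4 : e0 ≤ 4) (e4 : cC = 4 * (s ^ (1 / 4 : ℝ) * y⁻¹))
    (hth2 : s ^ (1 / 4 : ℝ) * y ≤ th) (hz1 : y ^ (e0 / 4) * (2 * th) ≤ z)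
    (hJ1 : 2 * y ^ (-3 : ℝ) ≤ 2 ^ J) :
    (c₁ * cC) ^ 2 ≤ 4 ^ (J + ⌈c₁⌉₊) * z ^ 2 := by
  have hye : 0 < y ^ (e0 / 4) := Real.rpow_pos_of_pos hy0 _
  have hth0 : 0 < th := (mul_pos hs4 hy0).trans_le hth2
  have hz0 : 0 < z := (mul_pos hye (by linarith)).trans_le hz1
  have e3 : cC ≤ 2 ^ J * z := by
    have e5 : y * y ≤ y ^ (e0 / 4) * y := by
      refine mul_le_mul_of_nonneg_right ?_ hy0.le
      calc y = y ^ (1 : ℝ) := (Real.rpow_one y).symm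
        _ ≤ y ^ (e0 / 4) := Real.rpow_le_rpow_of_exponent_ge hy0 hy1 (by linarith)
    have e6 : 2 * s ^ (1 / 4 : ℝ) * (y * y) ≤ z := by
      calc 2 * s ^ (1 / 4 : ℝ) * (y * y) ≤ 2 * s ^ (1 / 4 : ℝ) * (y ^ (e0 / 4) * y) :=
            mul_le_mul_of_nonneg_left e5 (by positivity)
        _ = y ^ (e0 / 4) * (2 * (s ^ (1 / 4 : ℝ) * y)) := by ring
        _ ≤ y ^ (e0 / 4) * (2 * th) :=
            mul_le_mul_of_nonneg_left (mul_le_mul_of_nonneg_left hth2 (by norm_num)) hye.le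
        _ ≤ z := hz1
    have e7 : y ^ (-3 : ℝ) = y⁻¹ * y⁻¹ * y⁻¹ := by
      rw [Real.rpow_neg hy0.le, show (3 : ℝ) = ((3 : ℕ) : ℝ) by norm_num, Real.rpow_natCast,
        ← inv_pow]
      ring
    rw [e7] at hJ1
    rw [e4]
    calc 4 * (s ^ (1 / 4 : ℝ) * y⁻¹)
        = 2 * (y⁻¹ * y⁻¹ * y⁻¹) * (2 * s ^ (1 / 4 : ℝ) * (y * y)) := by
          field_simp
          ring
      _ ≤ 2 ^ J * z := mul_le_mul hJ1 e6 (by positivity) (by positivity)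
  have e8 : 0 ≤ cC := by
    rw [e4]
    positivity
  have e9 : c₁ ≤ 2 ^ ⌈c₁⌉₊ := by
    calc c₁ ≤ (⌈c₁⌉₊ : ℝ) := Nat.le_ceil _
      _ ≤ 2 ^ ⌈c₁⌉₊ := by exact_mod_cast (Nat.lt_two_pow_self (n := ⌈c₁⌉₊)).le
  have e10 : c₁ * cC ≤ 2 ^ (J + ⌈c₁⌉₊) * z := by
    calc c₁ * cC ≤ 2 ^ ⌈c₁⌉₊ * (2 ^ J * z) := mul_le_mul e9 e3 e8 (by positivity)
      _ = 2 ^ (J + ⌈c₁⌉₊) * z := by ring
  calc (c₁ * cC) ^ 2 ≤ (2 ^ (J + ⌈c₁⌉₊) * z) ^ 2 :=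
        pow_le_pow_left₀ (mul_nonneg hc₁ e8) e10 2
    _ = 4 ^ (J + ⌈c₁⌉₊) * z ^ 2 := by
      rw [mul_pow, ← pow_mul, mul_comm (J + ⌈c₁⌉₊) 2, pow_mul]
      norm_num

/-- **The numbers of the pair `(Bg, Cg)` at class data.** At every `x0` the pair at the heights
`tauI`, `z` is at most `K₀ (J + 1)³ (√(z² E tauI² EB) + tauI² E)` if `(c₁ cCI)² ≤ 4^J z²`. -/
def NumBC (K₀ c₁ : ℝ) : Prop :=
  PairU fun _ _ _ p _ ez _ F2 F3 o K x s r U _ u v _ _ Q3 X =>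
    ∃ E EB : ℤ → ℝ, (∀ x0, 0 ≤ E x0) ∧ (∀ x0, 0 ≤ EB x0) ∧
      (∀ t ∈ rt (cx K x), ∀ x0 ∈ iv K t, ∀ (z : ℝ) (J : ℕ), gI p s r ≤ z → z ≤ cCI p s r →
        (c₁ * cCI p s r) ^ 2 ≤ 4 ^ J * z ^ 2 →
        pBC (p.al U K) o K (cx K x) (beI p r) (p.lam s r) u (cb p s r U K u F3 Q3)
            (C1 p ez U K v F2) (tauI p s r) z x0 ≤
          K₀ * ((J : ℝ) + 1) ^ 3 * (√(z ^ 2 * E x0 * (tauI p s r ^ 2 * EB x0)) +
            tauI p s r ^ 2 * E x0)) ∧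
      ∑ t ∈ rt (cx K x), ∑ x0 ∈ iv K t, E x0 ≤ X * (s * 8 ^ K) * (p.t / r) ^ (p.e0 / 2) ∧
      ∑ t ∈ rt (cx K x), ∑ x0 ∈ iv K t, EB x0 ≤
        X * (s * 8 ^ K) * (p.t / r) ^ (-(p.e0 / 2))

/-- **The leaf of the moving pair `(Bg, Cg)` at the full height of `Bg` from its numbers.** -/
theorem lbc_end {K₀ c₁ : ℝ} (hK₀ : 0 ≤ K₀) (hc₁ : 0 ≤ c₁) (H : NumBC K₀ c₁) :
    LBCg := by
  intro a ha ha1
  obtain ⟨es, hes, H⟩ := H a ha ha1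
  refine ⟨min es 4, lt_min hes (by norm_num), fun e0 he0 he0' => ?_⟩
  obtain ⟨k8s, hk8s, H⟩ := H e0 he0 (he0'.trans (min_le_left _ _))
  refine ⟨k8s, hk8s, fun k8 hk8 hk8' => ?_⟩
  obtain ⟨k3s, hk3s, H⟩ := H k8 hk8 hk8'
  refine ⟨k3s, hk3s, fun k3 hk3 hk3' δ hδ => ?_⟩
  obtain ⟨c1, d0, hc1, hd0, H⟩ := H k3 hk3 hk3' (δ / 2) (by positivity)
  refine ⟨c1, d0, hc1, hd0, fun c hc hcc d hd hdd Kt e cP L hK he hcP hL => ?_⟩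
  obtain ⟨C, hC, H⟩ := H c hc hcc d hd hdd Kt e cP L hK he hcP hL
  obtain ⟨C2, hC2, hJ⟩ := exists_levels (δ := δ / 2) (by positivity)
  refine ⟨2 * K₀ * ((⌈c₁⌉₊ : ℝ) + 1) ^ 3 * C2 * C, by positivity, ?_⟩
  intro t ht ht1 n ez F1 F2 F3 h1 h3 h2 o ho K hKn x ι _ _ s r U g u v hs hr hcls Q1 Q2 Q3 q1 q2 q3
    hez f1 f2 z hz1 hz2
  obtain ⟨E, EB, hE0, hB0, hN, hE, hEB⟩ :=
    H t ht ht1 n ez F1 F2 F3 h1 h3 h2 o ho K hKn x ι s r U g u v hs hr hcls Q1 Q2 Q3 q1 q2 q3 hez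
      f1 f2
  set p : H401.Num := ⟨a, e0, k8, k3, c, d, Kt, e, cP, L, 1, t⟩ with hp
  have hr0 : 0 < r := by linarith
  have hy0 : 0 < t / r := div_pos ht hr0
  have hyt : t / r ≤ t := by
    rw [div_le_iff₀ hr0]
    nlinarith
  have hy1 : t / r ≤ 1 := hyt.trans ht1
  obtain ⟨J, hJ1, hJ2⟩ := hJ (t / r) hy0 hy1
  have hth : 0 < p.th s r := H401.Num.th_pos (p := p) ht hs hr
  have hτ : 0 < tauI p s r := by
    unfold tauI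
    linarith
  have hs4 : 0 < s ^ (1 / 4 : ℝ) := Real.rpow_pos_of_pos hs _
  -- the height from below
  have hth2 : s ^ (1 / 4 : ℝ) * (t / r) ≤ p.th s r := by
    have e1 : p.th s r = t * s ^ (1 / 4 : ℝ) * (t / r) ^ (-k3) := by
      show t ^ (1 - k3) * s ^ (1 / 4 : ℝ) * r ^ k3 = _
      rw [Real.div_rpow ht.le hr0.le, Real.rpow_neg hr0.le, div_inv_eq_mul, sub_eq_add_neg,
        Real.rpow_add ht, Real.rpow_one]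
      ring
    have e2 : 1 ≤ (t / r) ^ (-k3) :=
      Real.one_le_rpow_of_pos_of_le_one_of_nonpos hy0 hy1 (by linarith)
    rw [e1]
    calc s ^ (1 / 4 : ℝ) * (t / r) ≤ s ^ (1 / 4 : ℝ) * t := mul_le_mul_of_nonneg_left hyt hs4.le
      _ = t * s ^ (1 / 4 : ℝ) * 1 := by ring
      _ ≤ t * s ^ (1 / 4 : ℝ) * (t / r) ^ (-k3) := mul_le_mul_of_nonneg_left e2 (by positivity)
  have hJz : (c₁ * cCI p s r) ^ 2 ≤ 4 ^ (J + ⌈c₁⌉₊) * z ^ 2 :=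
    lev_cap hc₁ hs4 hy0 hy1 (he0'.trans (min_le_right _ _)) rfl hth2 hz1 hJ1
  rw [PBCg_eq]
  refine (sum_num (by positivity) (sq_nonneg z) (sq_nonneg (tauI p s r)) hE0 hB0
    (fun t' h4 x0 h5 => hN t' h4 x0 h5 z (J + ⌈c₁⌉₊) hz1 hz2 hJz) hE hEB).trans ?_
  exact fin_num hK₀ hC (by positivity) hτ hy0 hy1 he0 hz1 hJ2

end

end Vale.Agent.P141.H886
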