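import Vale.Agent.P141.H886.NumOf
import Vale.Agent.P141.H736.FixBD
import Vale.Agent.P141.H74.CutBC
import Vale.Agent.P141.H652.NumR
import Vale.Agent.P141.H652.NumQ
import Vale.Agent.P141.H302.BornU
import Vale.Agent.P141.H548.LagU
import Vale.Agent.P141.H989.CrB3
import Vale.Agent.P141.H329.WinS

/-!
# P141, line (A), increasing part: the leaf `LBCg`

`fE`, `fB` : the numbers of the two slots; `pt` : the inequality at one `x0`, class data;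
`numBC : NumBC (18 * 120000) 2`, `lBCg : H408.LBCg`.
-/

namespace Vale.Agent.P141.H886

open Finset Matrix
open Vale.Agent.P141.PL (Pt iv ix cx mem_iv)
open Vale.Agent.P141.PL.H315 (Tri)
open Vale.Agent.P141.H48 (US ES BSl)
open Vale.Agent.P141.H305 (ClsM kapM)
open Vale.Agent.P141.H401 (StQ FibU FibP cb)
open Vale.Agent.P141.H652 (Th ah eb payS dB)
open Vale.Agent.P141.H677 (rt KT tr_T cP)
open Vale.Agent.P141.H808 (cS thS form_nonneg)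
open Vale.Agent.P141.H505.Sk1 (eT)
open Vale.Agent.P141.H419.WFamR (Wn Dn En nmH nmD nmE nmB c1 nmD_c1 nmE_c1)
open Vale.Agent.P141.H912 (wS wS_mono)
open Vale.Agent.P141.H408

noncomputable section

open scoped Classical

set_option linter.unusedVariables false

/-- the number of the second slot -/
def fE : NumF := fun ι _ _ p n ez F1 F2 F3 o K x s r U g u v Q1 Q2 Q3 x0 =>
  (∑ l ∈ range (K + 1), (3 / 4 : ℝ) ^ l *
      H548.vN 0 l ι p n ez F1 F2 F3 o K x s r U g u v Q1 Q2 Q3 x0) +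
  ((∑ l ∈ range (K + 1), (3 / 4 : ℝ) ^ l *
      H548.vN 1 l ι p n ez F1 F2 F3 o K x s r U g u v Q1 Q2 Q3 x0) +
  ((∑ l ∈ range (K + 1), (3 / 4 : ℝ) ^ l *
      H548.oN l ι p n ez F1 F2 F3 o K x s r U g u v Q1 Q2 Q3 x0) +
  ((∑ l ∈ range (K + 1), (3 / 4 : ℝ) ^ l *
      H302.bN (l + 1) ι p n ez F1 F2 F3 o K x s r U g u v Q1 Q2 Q3 x0) +
  (H302.bN 0 ι p n ez F1 F2 F3 o K x s r U g u v Q1 Q2 Q3 x0 +
    H989.CrB.fCRB H989.CrB.mB ι p n ez F1 F2 F3 o K x s r U g u v Q1 Q2 Q3 x0))))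

/-- the number of the first slot -/
def fB : NumF := fun ι _ _ p n ez F1 F2 F3 o K x s r U g u v Q1 Q2 Q3 x0 =>
  dB p s r U K x u F3 Q3 x0 +
    payS (beI p r) (p.lam s r) o K (cx K x) u (fun k => H652.bS p s r U K u F3 Q3 x0 k) x0

theorem sumU_E : SumU 1 fE :=
  SumU.add (H548.sumU_v (Nat.zero_le 1)) (SumU.add (H548.sumU_v le_rfl) (SumU.add H548.sumU_o
    (SumU.add H302.sumU_b1 (SumU.add H302.sumU_b0 H989.CrB.sumU_mB))))

theorem sumU_B : SumU (-1) fB := H652.EBU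

section one

variable {ι : Type} [Fintype ι] [DecidableEq ι] {p : H401.Num} {s r ez : ℝ} {o : ℤ} {K : ℕ}
  {x : Pt} {U : Tri} {u v : ℤ → ℤ → ι → ℝ} {F1 F2 F3 : ℕ → Pt → ℝ} {x0 : ℤ}

theorem kinds_nn (ht : 0 < p.t) (hs : 0 < s) (hr : 1 ≤ r) (a : ℕ) (x1 z : ℤ) (w : ι → ℝ) :
    0 ≤ H548.kinds p s r o K x u x0 a x1 z w := by
  unfold H548.kinds
  have h1 := H548.zm_nonneg ht hs hr o K x u x0 a x1 z w
  have h2 := H548.ze_nonneg ht hs hr o K x u x0 a x1 z w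
  have h3 := H548.zd_nonneg ht hs hr o K x u x0 a x1 z w
  have h4 := H548.zq_nonneg ht hs hr o K x u x0 a x1 z w
  linarith

theorem raw_D (ht : 0 < p.t) (hs : 0 < s) (hr : 1 ≤ r) (a : ℕ) (x1 z : ℤ) (w : ι → ℝ) :
    (beI p r)⁻¹ *
      ((ah (p.lam s r) K (cx K x).2.1 (KT (p.lam s r) u x1) (o - 2) x0 x1 a (ix (a + 1) z) *ᵥ
        w) ⬝ᵥ
      (ah (p.lam s r) K (cx K x).2.1 (KT (p.lam s r) u x1) (o - 2) x0 x1 a (ix (a + 1) z) *ᵥ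
        w)) ≤ H548.chg p s r o K x u x0 a x1 z w + H548.kinds p s r o K x u x0 a x1 z w := by
  have hb : 0 < (beI p r)⁻¹ := inv_pos.2 (Real.rpow_pos_of_pos (div_pos ht (by linarith)) _)
  have h0 := H548.raw_le ht hs hr o K x u x0 a x1 z w
  have h2 := mul_nonneg hb.le (form_nonneg (H652.eb_psd (M := (cx K x).2.1)
    (tr_T (H401.Num.lam_pos (p := p) ht hs hr) K u x1) (o - 2) x0 x1 (a + 1) (ix (a + 1) z)) w)
  have h3 := kinds_nn (o := o) (K := K) (x := x) (u := u) (x0 := x0) ht hs hr a x1 z w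
  linarith

theorem raw_E (ht : 0 < p.t) (hs : 0 < s) (hr : 1 ≤ r) (a : ℕ) (x1 z : ℤ) (w : ι → ℝ) :
    (beI p r)⁻¹ * (w ⬝ᵥ
      eb (p.lam s r) K (cx K x).2.1 (KT (p.lam s r) u x1) (o - 2) x0 x1 (a + 1)
        (ix (a + 1) z) *ᵥ w) ≤
      H548.chg p s r o K x u x0 a x1 z w + H548.kinds p s r o K x u x0 a x1 z w := by
  have hb : 0 < (beI p r)⁻¹ := inv_pos.2 (Real.rpow_pos_of_pos (div_pos ht (by linarith)) _)
  have h0 := H548.raw_le ht hs hr o K x u x0 a x1 z w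
  have h1 := mul_nonneg hb.le (H447.dot_self_nonneg (ah (p.lam s r) K (cx K x).2.1
    (KT (p.lam s r) u x1) (o - 2) x0 x1 a (ix (a + 1) z) *ᵥ w))
  have h3 := kinds_nn (o := o) (K := K) (x := x) (u := u) (x0 := x0) ht hs hr a x1 z w
  linarith

/-- variation, any time path -/
theorem lagD (ht : 0 < p.t) (hs : 0 < s) (hr : 1 ≤ r) (f : ℤ → ℤ → ι → ℝ) (a : ℕ) :
    (beI p r)⁻¹ * Dn K (cx K x).2.2 (cx K x).1 (fun a x1 m =>
      ah (p.lam s r) K (cx K x).2.1 (KT (p.lam s r) u x1) (o - 2) x0 x1 a m) f a ≤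
    ∑ x1 ∈ iv K (cx K x).1, ∑ z ∈ iv K (cx K x).2.2,
      (H548.chg p s r o K x u x0 a x1 z (f x1 z) + H548.kinds p s r o K x u x0 a x1 z (f x1 z)) := by
  unfold H419.WFamR.Dn
  rw [mul_sum]
  refine sum_le_sum fun x1 _ => ?_
  rw [mul_sum]
  exact sum_le_sum fun z _ => raw_D ht hs hr a x1 z (f x1 z)

/-- drift, any time path -/
theorem lagE (ht : 0 < p.t) (hs : 0 < s) (hr : 1 ≤ r) (f : ℤ → ℤ → ι → ℝ) (a : ℕ) :
    (beI p r)⁻¹ * En K (cx K x).2.2 (cx K x).1 (fun a x1 m =>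
      eb (p.lam s r) K (cx K x).2.1 (KT (p.lam s r) u x1) (o - 2) x0 x1 (a + 1) m) f a ≤
    ∑ x1 ∈ iv K (cx K x).1, ∑ z ∈ iv K (cx K x).2.2,
      (H548.chg p s r o K x u x0 a x1 z (f x1 z) + H548.kinds p s r o K x u x0 a x1 z (f x1 z)) := by
  unfold H419.WFamR.En
  rw [mul_sum]
  refine sum_le_sum fun x1 _ => ?_
  rw [mul_sum]
  exact sum_le_sum fun z _ => raw_E ht hs hr a x1 z (f x1 z)

theorem chg_nn (ht : 0 < p.t) (hs : 0 < s) (hr : 1 ≤ r) (a : ℕ) (x1 z : ℤ) (w : ι → ℝ) :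
    0 ≤ H548.chg p s r o K x u x0 a x1 z w + H548.kinds p s r o K x u x0 a x1 z w := by
  have hb : 0 < (beI p r)⁻¹ := inv_pos.2 (Real.rpow_pos_of_pos (div_pos ht (by linarith)) _)
  exact (mul_nonneg hb.le (H447.dot_self_nonneg _)).trans
    (raw_D (o := o) (K := K) (x := x) (u := u) (x0 := x0) ht hs hr a x1 z w)

/-- the wS form of the lags of the path -/
theorem wS_D (ht : 0 < p.t) (hs : 0 < s) (hr : 1 ≤ r) (n : ℕ) (F1 F3 : ℕ → Pt → ℝ)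
    (g : ℤ → ℤ → ℝ) (Q1 Q2 Q3 : ℕ → Pt → Prop) :
    wS K (fun q => (beI p r)⁻¹ * nmD K (cx K x).2.2 (cx K x).1 (fun a x1 m =>
      ah (p.lam s r) K (cx K x).2.1 (KT (p.lam s r) u x1) (o - 2) x0 x1 a m)
        (cS p ez U K v F2 x0) q) ≤
    ∑ l ∈ range (K + 1), (3 / 4 : ℝ) ^ l *
      H548.vN 0 l ι p n ez F1 F2 F3 o K x s r U g u v Q1 Q2 Q3 x0 := by
  refine wS_mono (Y := fun l => H548.vN 0 l ι p n ez F1 F2 F3 o K x s r U g u v Q1 Q2 Q3 x0)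
    fun q => ?_
  unfold H419.WFamR.nmD H548.vN
  rw [mul_sum, range_eq_Ico]
  exact sum_le_sum fun k _ => lagD ht hs hr (cS p ez U K v F2 x0 k) (k + q)

theorem wS_E (ht : 0 < p.t) (hs : 0 < s) (hr : 1 ≤ r) (n : ℕ) (F1 F3 : ℕ → Pt → ℝ)
    (g : ℤ → ℤ → ℝ) (Q1 Q2 Q3 : ℕ → Pt → Prop) :
    wS K (fun q => (beI p r)⁻¹ * nmE K (cx K x).2.2 (cx K x).1 (fun a x1 m =>
      eb (p.lam s r) K (cx K x).2.1 (KT (p.lam s r) u x1) (o - 2) x0 x1 (a + 1) m)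
        (cS p ez U K v F2 x0) q) ≤
    ∑ l ∈ range (K + 1), (3 / 4 : ℝ) ^ l *
      H548.vN 0 l ι p n ez F1 F2 F3 o K x s r U g u v Q1 Q2 Q3 x0 := by
  refine wS_mono (Y := fun l => H548.vN 0 l ι p n ez F1 F2 F3 o K x s r U g u v Q1 Q2 Q3 x0)
    fun q => ?_
  unfold H419.WFamR.nmE H548.vN
  rw [mul_sum, range_eq_Ico]
  exact sum_le_sum fun k _ => lagE ht hs hr (cS p ez U K v F2 x0 k) (k + q)

theorem vN_nn (ht : 0 < p.t) (hs : 0 < s) (hr : 1 ≤ r) (j q n : ℕ) (F1 F3 : ℕ → Pt → ℝ)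
    (g : ℤ → ℤ → ℝ) (Q1 Q2 Q3 : ℕ → Pt → Prop) :
    0 ≤ H548.vN j q ι p n ez F1 F2 F3 o K x s r U g u v Q1 Q2 Q3 x0 := by
  unfold H548.vN
  exact sum_nonneg fun k _ => sum_nonneg fun x1 _ => sum_nonneg fun z _ => chg_nn ht hs hr _ _ _ _

theorem oN_nn (ht : 0 < p.t) (hs : 0 < s) (hr : 1 ≤ r) (q n : ℕ) (F1 F3 : ℕ → Pt → ℝ)
    (g : ℤ → ℤ → ℝ) (Q1 Q2 Q3 : ℕ → Pt → Prop) :
    0 ≤ H548.oN q ι p n ez F1 F2 F3 o K x s r U g u v Q1 Q2 Q3 x0 := by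
  unfold H548.oN
  exact sum_nonneg fun x1 _ => sum_nonneg fun z _ => H302.eT_nn ht hs hr _ _ _ _

theorem bN_nn (ht : 0 < p.t) (hs : 0 < s) (hr : 1 ≤ r) (q n : ℕ) (F1 F3 : ℕ → Pt → ℝ)
    (g : ℤ → ℤ → ℝ) (Q1 Q2 Q3 : ℕ → Pt → Prop) :
    0 ≤ H302.bN q ι p n ez F1 F2 F3 o K x s r U g u v Q1 Q2 Q3 x0 := by
  unfold H302.bN
  refine sum_nonneg fun k _ => sum_nonneg fun x1 _ => sum_nonneg fun z _ => ?_
  split_ifs
  · exact H302.eT_nn ht hs hr _ _ _ _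
  · exact le_rfl

theorem crb_nn (ht : 0 < p.t) (hs : 0 < s) (hr : 1 ≤ r) (n : ℕ) (F1 F3 : ℕ → Pt → ℝ)
    (g : ℤ → ℤ → ℝ) (Q1 Q2 Q3 : ℕ → Pt → Prop) :
    0 ≤ H989.CrB.fCRB H989.CrB.mB ι p n ez F1 F2 F3 o K x s r U g u v Q1 Q2 Q3 x0 := by
  unfold H989.CrB.fCRB
  refine sum_nonneg fun k _ => sum_nonneg fun x1 _ => sum_nonneg fun z _ => ?_
  split_ifs
  · rw [H989.CrB.wE_eT]
    exact H302.eT_nn ht hs hr _ _ _ _
  · exact le_rfl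

theorem w_nn {K : ℕ} {f : ℕ → ℝ} (h : ∀ l, 0 ≤ f l) :
    0 ≤ ∑ l ∈ range (K + 1), (3 / 4 : ℝ) ^ l * f l :=
  sum_nonneg fun l _ => mul_nonneg (by positivity) (h l)

theorem w_z {K : ℕ} {f : ℕ → ℝ} (h : ∀ l, 0 ≤ f l) :
    f 0 ≤ ∑ l ∈ range (K + 1), (3 / 4 : ℝ) ^ l * f l := H912.wS_zero_le h

/-- the six numbers of the second slot -/
theorem fE_parts (ht : 0 < p.t) (hs : 0 < s) (hr : 1 ≤ r) (n : ℕ) (F1 F3 : ℕ → Pt → ℝ)
    (g : ℤ → ℤ → ℝ) (Q1 Q2 Q3 : ℕ → Pt → Prop) :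
    0 ≤ fE ι p n ez F1 F2 F3 o K x s r U g u v Q1 Q2 Q3 x0 ∧
    (∑ l ∈ range (K + 1), (3 / 4 : ℝ) ^ l *
      H548.vN 0 l ι p n ez F1 F2 F3 o K x s r U g u v Q1 Q2 Q3 x0) ≤
      fE ι p n ez F1 F2 F3 o K x s r U g u v Q1 Q2 Q3 x0 ∧
    H548.vN 1 0 ι p n ez F1 F2 F3 o K x s r U g u v Q1 Q2 Q3 x0 ≤
      fE ι p n ez F1 F2 F3 o K x s r U g u v Q1 Q2 Q3 x0 ∧
    H548.oN 0 ι p n ez F1 F2 F3 o K x s r U g u v Q1 Q2 Q3 x0 ≤
      fE ι p n ez F1 F2 F3 o K x s r U g u v Q1 Q2 Q3 x0 ∧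
    (∑ l ∈ range (K + 1), (3 / 4 : ℝ) ^ l *
      H302.bN (l + 1) ι p n ez F1 F2 F3 o K x s r U g u v Q1 Q2 Q3 x0) ≤
      fE ι p n ez F1 F2 F3 o K x s r U g u v Q1 Q2 Q3 x0 ∧
    H302.bN 0 ι p n ez F1 F2 F3 o K x s r U g u v Q1 Q2 Q3 x0 ≤
      fE ι p n ez F1 F2 F3 o K x s r U g u v Q1 Q2 Q3 x0 ∧
    H989.CrB.fCRB H989.CrB.mB ι p n ez F1 F2 F3 o K x s r U g u v Q1 Q2 Q3 x0 ≤
      fE ι p n ez F1 F2 F3 o K x s r U g u v Q1 Q2 Q3 x0 := by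
  have h1 := w_nn (K := K) (f := fun l =>
    H548.vN 0 l ι p n ez F1 F2 F3 o K x s r U g u v Q1 Q2 Q3 x0)
    fun l => vN_nn ht hs hr 0 l n F1 F3 g Q1 Q2 Q3
  have h2 := w_nn (K := K) (f := fun l =>
    H548.vN 1 l ι p n ez F1 F2 F3 o K x s r U g u v Q1 Q2 Q3 x0)
    fun l => vN_nn ht hs hr 1 l n F1 F3 g Q1 Q2 Q3
  have h2' := w_z (K := K) (f := fun l =>
    H548.vN 1 l ι p n ez F1 F2 F3 o K x s r U g u v Q1 Q2 Q3 x0)
    fun l => vN_nn ht hs hr 1 l n F1 F3 g Q1 Q2 Q3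
  have h3 := w_nn (K := K) (f := fun l =>
    H548.oN l ι p n ez F1 F2 F3 o K x s r U g u v Q1 Q2 Q3 x0)
    fun l => oN_nn ht hs hr l n F1 F3 g Q1 Q2 Q3
  have h3' := w_z (K := K) (f := fun l =>
    H548.oN l ι p n ez F1 F2 F3 o K x s r U g u v Q1 Q2 Q3 x0)
    fun l => oN_nn ht hs hr l n F1 F3 g Q1 Q2 Q3
  have h4 := w_nn (K := K) (f := fun l =>
    H302.bN (l + 1) ι p n ez F1 F2 F3 o K x s r U g u v Q1 Q2 Q3 x0)
    fun l => bN_nn ht hs hr (l + 1) n F1 F3 g Q1 Q2 Q3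
  have h5 := bN_nn (ι := ι) (ez := ez) (o := o) (K := K) (x := x) (U := U) (u := u) (v := v)
    (F2 := F2) (x0 := x0) ht hs hr 0 n F1 F3 g Q1 Q2 Q3
  have h6 := crb_nn (ι := ι) (ez := ez) (o := o) (K := K) (x := x) (U := U) (u := u) (v := v)
    (F2 := F2) (x0 := x0) ht hs hr n F1 F3 g Q1 Q2 Q3
  beta_reduce at h1 h2 h2' h3 h3' h4
  unfold fE
  refine ⟨?_, ?_, ?_, ?_, ?_, ?_, ?_⟩ <;> linarith

theorem cS_min1 (p : H401.Num) (ez : ℝ) (U : Tri) (K : ℕ) (v : ℤ → ℤ → ι → ℝ)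
    (F2 : ℕ → Pt → ℝ) (x0 : ℤ) (k : ℕ) :
    cS p ez U K v F2 x0 (min k K) = cS p ez U K v F2 x0 k := by
  funext x1 z
  rw [H548.cS_min p ez U K v F2 x0 (min k K), H548.cS_min p ez U K v F2 x0 k, min_assoc, min_self]

/-- energies of the path at the start: zero -/
theorem wS_H (be : ℝ) (T : ℕ → ℤ → ℤ → Matrix ι ι ℝ) (N : ℕ) (R S : ℤ) :
    wS N (nmH N R S be T (cS p ez U K v F2 x0)) = 0 := by
  have h : ∀ r, nmH N R S be T (cS p ez U K v F2 x0) r = 0 := by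
    intro r
    unfold H419.WFamR.nmH H419.WFamR.Wn
    refine sum_eq_zero fun x1 _ => sum_eq_zero fun z _ => ?_
    rw [H548.cS_zero, zero_dotProduct]
  unfold H912.wS
  exact sum_eq_zero fun r _ => by rw [h, mul_zero]

end one

/-- **The inequality at one `x0`.** -/
theorem pt : FixBC (18 * 120000) 2 fE fB := by
  intro ι _ _ p n ez F1 F2 F3 o K x s r U g u v Q1 Q2 Q3 _ _ he0 _ _ _ _ _ hd1 _ _ _ _ ht ht1 _ _
    _ ho hKn hs hr hcls _ q2 _ hez _ _ t _ x0 _ z J hz1 _ hJ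
  have hr0 : 0 < r := by linarith
  have hy0 : 0 < p.t / r := div_pos ht hr0
  have hbe : 0 < beI p r := Real.rpow_pos_of_pos hy0 _
  have hbe1 : beI p r ≤ 1 := H548.beI_le_one ht ht1 he0.le hr
  have hl : 0 < p.lam s r := H401.Num.lam_pos (p := p) ht hs hr
  have hth : 0 < p.th s r := H401.Num.th_pos (p := p) ht hs hr
  have hτ : 0 < tauI p s r := by
    unfold tauI
    linarith
  have hg : 0 < gI p s r := by
    unfold gI
    exact mul_pos (Real.rpow_pos_of_pos hy0 _) hτ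
  have hz : 0 < z := hg.trans_le hz1
  have hT := H652.wt_Th (fun x1 => tr_T hl K u x1) (cx K x).2.1 (o - 2) x0
  obtain ⟨e0, e1, e2, e3, e4, e5, e6⟩ := fE_parts (ι := ι) (ez := ez) (o := o) (K := K) (x := x)
    (U := U) (u := u) (v := v) (F2 := F2) (x0 := x0) ht hs hr n F1 F3 g Q1 Q2 Q3
  have hpay := H652.payS_nonneg (K := K) (M := cx K x) (u := u) (o := o) (x0 := x0) hbe hl
    (fun k => H652.bS p s r U K u F3 Q3 x0 k)
  have hdB := H652.dB_nonneg (p := p) (s := s) (r := r) (U := U) (K := K) (u := u) (F3 := F3)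
    (Q3 := Q3) x x0
  have hB0 : 0 ≤ fB ι p n ez F1 F2 F3 o K x s r U g u v Q1 Q2 Q3 x0 := add_nonneg hdB hpay
  have hBd : dB p s r U K x u F3 Q3 x0 ≤ fB ι p n ez F1 F2 F3 o K x s r U g u v Q1 Q2 Q3 x0 :=
    le_add_of_nonneg_right hpay
  have hBp : payS (beI p r) (p.lam s r) o K (cx K x) u (fun k => H652.bS p s r U K u F3 Q3 x0 k)
      x0 ≤ fB ι p n ez F1 F2 F3 o K x s r U g u v Q1 Q2 Q3 x0 := le_add_of_nonneg_left hdB
  refine (H329.WinBC.pBC_cls ht hs hr ez U o K x u v F2 F3 Q3 hτ hz x0).trans ?_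
  rw [← H74.CutBC.GW_win_cut]
  have hC0 : (0 : ℝ) ≤ cCI p s r ^ 2 := sq_nonneg _
  have key := H736.fix_BC2 (s := z ^ 2) (q := p.th s r ^ 2) (τ := 2) (N := K) (C := cCI p s r ^ 2)
    (J := J) (R₁ := (cx K x).2.1) (S₁ := (cx K x).1) (T₁ := (cx K x).2.2) (cc := cP o x0)
    (b := H652.bS p s r U K u F3 Q3 x0)
    (c := H170.Win.cut K (cx K x).1 (cx K x).2.2 (cS p ez U K v F2 x0))
    (Pb := H652.PbS p s r U K u F3 Q3 x0) (Pc := H302.Pr (cS p ez U K v F2 x0))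
    (E := fE ι p n ez F1 F2 F3 o K x s r U g u v Q1 Q2 Q3 x0)
    (EB := fB ι p n ez F1 F2 F3 o K x s r U g u v Q1 Q2 Q3 x0)
    hbe hbe1 (by positivity) (by positivity) zero_le_two le_rfl hT
    (fun k x1 m => H652.Th_le_two (tr_T hl K u x1) (o - 2) x0 x1 k m)
    (H652.PbS_off x0) (H74.CutBC.cut_row H302.pr_not) (H652.bS_capk hth x0)
    (H652.bS_capk1 hth x0) (H652.bS_capN hth x0)
    (fun k a n' m h1 h2 => H74.CapBC.cut_capX ht ht1 hd1 he0.le hs hr hez hKn hcls.toCls q2 x0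
      (by omega) (by omega) (by omega) n' m)
    (fun k a n' m h1 h2 => H74.CapBC.cut_capX ht ht1 hd1 he0.le hs hr hez hKn hcls.toCls q2 x0
      (by omega) (by omega) (by omega) n' m)
    (by nlinarith) (H677.cP_pl ho x0) e0 hB0
    ((H652.bS_hB1 x x0).trans hBd) ((H652.bS_hB2 x x0).trans hBd)
    ((H652.pay_hB3 hbe hl (H652.bS p s r U K u F3 Q3 x0)).trans hBp)
    ((H652.pay_hB4 hbe (H652.bS p s r U K u F3 Q3 x0)).trans hBp)
    ?_ ?_ ?_ ?_ ?_ ?_ ?_ ?_ ?_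
  · refine key.trans ?_
    have hq : p.th s r ^ 2 ≤ tauI p s r ^ 2 := by
      unfold tauI
      nlinarith
    have hz2 : 0 ≤ z ^ 2 := sq_nonneg z
    have h1 : √(z ^ 2 * fE ι p n ez F1 F2 F3 o K x s r U g u v Q1 Q2 Q3 x0 *
          (p.th s r ^ 2 * fB ι p n ez F1 F2 F3 o K x s r U g u v Q1 Q2 Q3 x0)) ≤
        √(z ^ 2 * fE ι p n ez F1 F2 F3 o K x s r U g u v Q1 Q2 Q3 x0 *
          (tauI p s r ^ 2 * fB ι p n ez F1 F2 F3 o K x s r U g u v Q1 Q2 Q3 x0)) :=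
      Real.sqrt_le_sqrt (mul_le_mul_of_nonneg_left (mul_le_mul_of_nonneg_right hq hB0)
        (mul_nonneg hz2 e0))
    have h2 := mul_le_mul_of_nonneg_right hq e0
    have h3 : (0 : ℝ) ≤ 18 * (120000 * ((J : ℝ) + 1) ^ 3) := by positivity
    refine (mul_le_mul_of_nonneg_left (add_le_add h1 h2) h3).trans (le_of_eq ?_)
    ring
  · rw [H74.CutBC.c1_cut, H74.CutBC.nmH_cut]
    refine le_trans (le_of_eq ?_) e3
    unfold H419.WFamR.nmH H419.WFamR.c1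
    rw [cS_min1]
    unfold H548.oN
    rw [Nat.zero_min]
    rfl
  · rw [H74.CutBC.c1_cut, H74.CutBC.nmD_cut, nmD_c1, mul_sum]
    refine le_trans ?_ e2
    unfold H548.vN
    rw [range_eq_Ico]
    exact sum_le_sum fun k _ => lagD ht hs hr (cS p ez U K v F2 x0 (k + 1)) (k + 0)
  · rw [H74.CutBC.c1_cut, H74.CutBC.nmE_cut, nmE_c1, mul_sum]
    refine le_trans ?_ e2
    unfold H548.vN
    rw [range_eq_Ico]
    exact sum_le_sum fun k _ => lagE ht hs hr (cS p ez U K v F2 x0 (k + 1)) (k + 0)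
  · refine le_trans (le_of_eq ?_) e6
    unfold H989.CrB.fCRB
    refine sum_congr rfl fun k hk => sum_congr rfl fun x1 hx1 => sum_congr rfl fun z' hz' => ?_
    rw [H74.CutBC.wE_cut (mem_Ico.1 hk).2 hx1 hz']
    rfl
  · refine le_trans (le_of_eq ?_) ((H302.Wn_bN (o := o) (x := x) (u := u) (P := H302.Pr
      (cS p ez U K v F2 x0)) ht hs hr H302.pr_ch n F1 F3 g Q1 Q2 Q3).trans e5)
    exact sum_congr rfl fun k hk => H74.CutBC.Wn_rs_cut (mem_Ico.1 hk).2 _ _ _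
  · rw [H74.CutBC.nmH_cut, wS_H]
    exact e0
  · rw [H74.CutBC.nmD_cut]
    exact (wS_D ht hs hr n F1 F3 g Q1 Q2 Q3).trans e1
  · rw [H74.CutBC.nmE_cut]
    exact (wS_E ht hs hr n F1 F3 g Q1 Q2 Q3).trans e1
  · rw [H74.CutBC.nmB_cut]
    exact (wS_mono fun q => H302.nmB_bN (o := o) (x := x) (u := u) ht hs hr H302.pr_ch q n F1 F3 g
      Q1 Q2 Q3).trans e4

theorem nn_E : NN fE := fun ι _ _ p n ez F1 F2 F3 o K x s r U g u v Q1 Q2 Q3 x0 ht hs hr _ =>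
  (fE_parts ht hs hr n F1 F3 g Q1 Q2 Q3).1

theorem nn_B : NN fB := fun ι _ _ p n ez F1 F2 F3 o K x s r U g u v Q1 Q2 Q3 x0 ht hs hr _ =>
  add_nonneg (H652.dB_nonneg x x0) (H652.payS_nonneg
    (Real.rpow_pos_of_pos (div_pos ht (by linarith)) _) (H401.Num.lam_pos (p := p) ht hs hr) _)

/-- **The numbers of the pair `(Bg, Cg)`.** -/
theorem numBC : NumBC (18 * 120000) 2 := numBC_of sumU_E sumU_B nn_E nn_B pt

/-- **The leaf `LBCg`.** -/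
theorem lBCg : LBCg := lbc_end (by norm_num) (by norm_num) numBC

end

end Vale.Agent.P141.H886
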