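import Vale.Agent.P141.H886.LbcEnd
import Vale.Agent.P141.H886.SumU

/-!
# P141, line (A), increasing part: the numbers of `(Bg, Cg)` from a statement at one `x0`

`numBC_of` : the `x0` sums of the two numbers (`SumU`) and the inequality at every `x0` of class
data give `NumBC`.
-/

namespace Vale.Agent.P141.H886

open Finset Matrix
open Vale.Agent.P141.PL (Pt iv cx)
open Vale.Agent.P141.PL.H315 (Tri)
open Vale.Agent.P141.H48 (US ES BSl)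
open Vale.Agent.P141.H305 (ClsM kapM)
open Vale.Agent.P141.H401 (StQ FibU FibP cb)
open Vale.Agent.P141.H677 (rt)
open Vale.Agent.P141.H408

noncomputable section

open scoped Classical

/-- the inequality at one `x0`, class data -/
def FixBC (K₀ c₁ : ℝ) (fE fB : NumF) : Prop :=
  ∀ (ι : Type) [Fintype ι] [DecidableEq ι] (p : H401.Num) (n : ℕ) (ez : ℝ)
    (F1 F2 F3 : ℕ → Pt → ℝ) (o : ℤ) (K : ℕ) (x : Pt) (s r : ℝ) (U : Tri) (g : ℤ → ℤ → ℝ)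
    (u v : ℤ → ℤ → ι → ℝ) (Q1 Q2 Q3 : ℕ → Pt → Prop),
    0 < p.a → p.a ≤ 1 → 0 < p.e0 → p.e0 ≤ 4 → 0 < p.k8 → 0 < p.k3 → 0 ≤ p.c → 0 < p.d →
    p.d ≤ 1 → 0 < p.Kt → 1 ≤ p.e → 0 ≤ p.cP → 1 ≤ p.L → 0 < p.t → p.t ≤ 1 →
    US n (p.Kt * p.t ^ (1 - p.c)) p.e p.cP F1 → US n (p.Kt * p.t ^ (1 - p.c)) p.e p.cP F3 →
    ES n ez p.cP F2 → (o = 1 ∨ o = -1) → K ≤ n → 0 < s → 1 ≤ r →
    ClsM K x s r (p.L * p.t ^ (2 - p.c) * √s) (kapM p.L p.t p.a s r) U g u v →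
    BSl n p.e p.cP F1 Q1 → BSl n ez p.cP F2 Q2 → BSl n p.e p.cP F3 Q3 → 0 < ez →
    FibU p K x s r U u → FibP p K x s r U v →
    ∀ t ∈ rt (cx K x), ∀ x0 ∈ iv K t, ∀ (z : ℝ) (J : ℕ), gI p s r ≤ z → z ≤ cCI p s r →
      (c₁ * cCI p s r) ^ 2 ≤ 4 ^ J * z ^ 2 →
      pBC (p.al U K) o K (cx K x) (beI p r) (p.lam s r) u (cb p s r U K u F3 Q3)
          (C1 p ez U K v F2) (tauI p s r) z x0 ≤
        K₀ * ((J : ℝ) + 1) ^ 3 *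
          (√(z ^ 2 * fE ι p n ez F1 F2 F3 o K x s r U g u v Q1 Q2 Q3 x0 *
              (tauI p s r ^ 2 * fB ι p n ez F1 F2 F3 o K x s r U g u v Q1 Q2 Q3 x0)) +
            tauI p s r ^ 2 * fE ι p n ez F1 F2 F3 o K x s r U g u v Q1 Q2 Q3 x0)

/-- a number is not negative -/
def NN (f : NumF) : Prop :=
  ∀ (ι : Type) [Fintype ι] [DecidableEq ι] (p : H401.Num) (n : ℕ) (ez : ℝ)
    (F1 F2 F3 : ℕ → Pt → ℝ) (o : ℤ) (K : ℕ) (x : Pt) (s r : ℝ) (U : Tri) (g : ℤ → ℤ → ℝ)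
    (u v : ℤ → ℤ → ι → ℝ) (Q1 Q2 Q3 : ℕ → Pt → Prop) (x0 : ℤ), 0 < p.t → 0 < s → 1 ≤ r →
    0 < ez → 0 ≤ f ι p n ez F1 F2 F3 o K x s r U g u v Q1 Q2 Q3 x0

theorem numBC_of {K₀ c₁ : ℝ} {fE fB : NumF} (HE : SumU 1 fE) (HB : SumU (-1) fB) (nE : NN fE)
    (nB : NN fB) (h : FixBC K₀ c₁ fE fB) : NumBC K₀ c₁ := by
  intro a ha ha1
  obtain ⟨es, hes, H⟩ := PairU.and HE HB (mono_sumQ 1 fE) (mono_sumQ (-1) fB) a ha ha1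
  refine ⟨min es 4, lt_min hes (by norm_num), fun e0 he0 he0' => ?_⟩
  obtain ⟨k8s, hk8s, H⟩ := H e0 he0 (he0'.trans (min_le_left _ _))
  refine ⟨k8s, hk8s, fun k8 hk8 hk8' => ?_⟩
  obtain ⟨k3s, hk3s, H⟩ := H k8 hk8 hk8'
  refine ⟨k3s, hk3s, fun k3 hk3 hk3' δ hδ => ?_⟩
  obtain ⟨c1, d0, hc1, hd0, H⟩ := H k3 hk3 hk3' δ hδ
  refine ⟨c1, min d0 1, hc1, lt_min hd0 one_pos,
    fun c hc hcc d hd hdd Kt e cP L hK he hcP hL => ?_⟩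
  obtain ⟨C, hC, H⟩ := H c hc hcc d hd (hdd.trans (min_le_left _ _)) Kt e cP L hK he hcP hL
  refine ⟨C, hC, ?_⟩
  intro t ht ht1 n ez F1 F2 F3 h1 h3 h2 o ho K hKn x ι _ _ s r U g u v hs hr hcls Q1 Q2 Q3 q1 q2 q3
    hez f1 f2
  have H0 := H t ht ht1 n ez F1 F2 F3 h1 h3 h2 o ho K hKn x ι s r U g u v hs hr hcls Q1 Q2 Q3 q1 q2
    q3 hez f1 f2
  have HE0 := H0.1
  have HB0 := H0.2
  unfold SumQ at HE0 HB0
  rw [one_mul] at HE0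
  rw [neg_one_mul] at HB0
  refine ⟨fun x0 => fE ι _ n ez F1 F2 F3 o K x s r U g u v Q1 Q2 Q3 x0,
    fun x0 => fB ι _ n ez F1 F2 F3 o K x s r U g u v Q1 Q2 Q3 x0,
    fun x0 => nE ι _ n ez F1 F2 F3 o K x s r U g u v Q1 Q2 Q3 x0 ht hs hr hez,
    fun x0 => nB ι _ n ez F1 F2 F3 o K x s r U g u v Q1 Q2 Q3 x0 ht hs hr hez, ?_, HE0, HB0⟩
  intro t' ht' x0 hx0 z J hz1 hz2 hJ
  exact h ι ⟨a, e0, k8, k3, c, d, Kt, e, cP, L, 1, t⟩ n ez F1 F2 F3 o K x s r U g u v Q1 Q2 Q3 ha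
    ha1 he0 (he0'.trans (min_le_right _ _)) hk8 hk3 hc hd (hdd.trans (min_le_right _ _)) hK he hcP
    hL ht ht1 h1 h3 h2 ho hKn hs hr hcls q1 q2 q3 hez f1 f2 t' ht' x0 hx0 z J hz1 hz2 hJ

end

end Vale.Agent.P141.H886
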